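import Crest.Agent.R194.L2
import Crest.Agent.R177.DetFK

/-! The left regular representation of matrices over `ℂ[G]` and its trace. -/

set_option autoImplicit false

namespace Crest.Agent.R177

open Finset Crest.Agent.R194
open scoped InnerProductSpace Classical ComplexConjugate

section Rep
variable {G : Type} [Group G] {n : ℕ}

/-- `ℓ²(G)^n`. -/
abbrev RH (n : ℕ) (G : Type) : Type := lp (fun _ : Fin n × G => ℂ) 2

/-- The standard basis. -/
noncomputable def rbas (n : ℕ) (G : Type) : HilbertBasis (Fin n × G) ℂ (RH n G) :=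
  HilbertBasis.ofRepr (LinearIsometryEquiv.refl ℂ _)

omit [Group G] in
lemma inner_rbas (x : Fin n × G) (ξ : RH n G) : ⟪rbas n G x, ξ⟫_ℂ = ξ x :=
  ((rbas n G).repr_apply_apply ξ x).symm

omit [Group G] in
lemma rbas_apply (x y : Fin n × G) : rbas n G x y = if y = x then 1 else 0 := by
  rw [← inner_rbas, orthonormal_iff_ite.mp (rbas n G).orthonormal]

/-- Left translations. -/
noncomputable def rlam (n : ℕ) (G : Type) [Group G] : G →* (RH n G →L[ℂ] RH n G) where
  toFun k := shift (Equiv.prodCongr (Equiv.refl _) (Equiv.mulLeft k⁻¹))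
  map_one' := lp2_ext fun ξ x => by simp
  map_mul' a b := lp2_ext fun ξ x => by
    simp [Prod.map]

lemma rlam_apply (k : G) (ξ : RH n G) (x : Fin n × G) : rlam n G k ξ x = ξ (x.1, k⁻¹ * x.2) := rfl

lemma star_rlam (k : G) : star (rlam n G k) = rlam n G k⁻¹ := by
  rw [ContinuousLinearMap.star_eq_adjoint]
  exact (adjoint_shift _).trans (lp2_ext fun ξ x => by simp [rlam_apply, Prod.map])

/-- Right translations. -/
noncomputable def rrt (n : ℕ) (k : G) : RH n G →L[ℂ] RH n G :=
  shift (Equiv.prodCongr (Equiv.refl _) (Equiv.mulRight k))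

lemma rrt_apply (k : G) (ξ : RH n G) (x : Fin n × G) : rrt n k ξ x = ξ (x.1, x.2 * k) := rfl

lemma star_rrt (k : G) : star (rrt n k) = rrt n k⁻¹ := by
  rw [ContinuousLinearMap.star_eq_adjoint]
  exact (adjoint_shift _).trans (lp2_ext fun ξ x => by simp [rrt_apply, Prod.map])

lemma rrt_rbas (k : G) (x : Fin n × G) : rrt n k (rbas n G x) = rbas n G (x.1, x.2 * k⁻¹) := by
  refine lp.ext (funext fun y => ?_)
  rw [rrt_apply, rbas_apply, rbas_apply]
  congr 1
  simp [Prod.ext_iff, eq_mul_inv_iff_mul_eq]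

/-- Matrix units. -/
noncomputable def rE (G : Type) (i j : Fin n) : RH n G →L[ℂ] RH n G :=
  (diagL fun x : Fin n × G => if x.1 = i then ContinuousLinearMap.id ℂ ℂ else 0).comp
    (shift (Equiv.prodCongr (Equiv.swap i j) (Equiv.refl _)))

omit [Group G] in
lemma rE_apply (i j : Fin n) (ξ : RH n G) (x : Fin n × G) :
    rE G i j ξ x = if x.1 = i then ξ (j, x.2) else 0 := by
  have hb : BddL fun x : Fin n × G => if x.1 = i then ContinuousLinearMap.id ℂ ℂ else 0 :=
    ⟨1, fun x => by dsimp only; split_ifs <;> simp⟩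
  rw [rE, ContinuousLinearMap.comp_apply, diagL_apply hb]
  split_ifs with h
  · simp [Prod.map, h]
  · simp

omit [Group G] in
lemma rE_mul (i j k l : Fin n) : rE G i j * rE G k l = if j = k then rE G i l else 0 :=
  lp2_ext fun ξ x => by
    rw [mul_apply_eq_comp, rE_apply, rE_apply]
    split_ifs <;> simp_all [rE_apply]

omit [Group G] in
lemma sum_rE : ∑ i : Fin n, rE G i i = 1 :=
  lp2_ext fun ξ x => by
    rw [_root_.sum_apply, lp2_sum_apply]
    simp [rE_apply]

omit [Group G] in
lemma star_rE (i : Fin n) : star (rE G i i) = rE G i i := by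
  rw [ContinuousLinearMap.star_eq_adjoint]
  symm
  rw [ContinuousLinearMap.eq_adjoint_iff]
  intro x y
  rw [lp.inner_eq_tsum, lp.inner_eq_tsum]
  refine tsum_congr fun p => ?_
  rw [rE_apply, rE_apply]
  split_ifs with h
  · subst h; rfl
  · simp

/-- The regular representation of the group algebra. -/
noncomputable def rlamA (n : ℕ) (G : Type) [Group G] :
    MonoidAlgebra ℂ G →ₐ[ℂ] (RH n G →L[ℂ] RH n G) :=
  MonoidAlgebra.lift ℂ _ G (rlam n G)

lemma commute_rlamA {S : RH n G →L[ℂ] RH n G} (h : ∀ k, Commute S (rlam n G k))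
    (f : MonoidAlgebra ℂ G) : Commute S (rlamA n G f) := by
  induction f using MonoidAlgebra.induction_linear with
  | zero => simp
  | add a b ha hb => rw [map_add]; exact ha.add_right hb
  | single k c => rw [rlamA, MonoidAlgebra.lift_single]; exact (h k).smul_right c

lemma rE_commute (i j : Fin n) (f : MonoidAlgebra ℂ G) : Commute (rE G i j) (rlamA n G f) :=
  commute_rlamA (fun k => lp2_ext fun ξ x => by
    simp [rE_apply, rlam_apply]) f

lemma rlamA_rbas (f : MonoidAlgebra ℂ G) (x y : Fin n × G) :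
    rlamA n G f (rbas n G x) y = if y.1 = x.1 then f.coeff (y.2 * x.2⁻¹) else 0 := by
  induction f using MonoidAlgebra.induction_linear with
  | zero => simp
  | add a b ha hb =>
    rw [map_add, _root_.add_apply, lp.coeFn_add, Pi.add_apply, ha, hb]
    split_ifs <;> simp
  | single k c =>
    rw [rlamA, MonoidAlgebra.lift_single, _root_.smul_apply, lp.coeFn_smul,
      Pi.smul_apply, rlam_apply, rbas_apply, MonoidAlgebra.coeff_single, Finsupp.single_apply]
    by_cases h1 : y.1 = x.1 <;> by_cases h2 : k = y.2 * x.2⁻¹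
    · simp [h1, h2]
    · have : ¬ k⁻¹ * y.2 = x.2 := fun h => h2 (by rw [← h]; simp)
      simp [Prod.ext_iff, h2, this]
    · simp [Prod.ext_iff, h1]
    · simp [Prod.ext_iff, h1]

/-- The representation of matrices over the group algebra. -/
noncomputable def rrho (n : ℕ) (G : Type) [Group G] :
    Matrix (Fin n) (Fin n) (MonoidAlgebra ℂ G) →+* (RH n G →L[ℂ] RH n G) where
  toFun A := ∑ i, ∑ j, rE G i j * rlamA n G (A i j)
  map_one' := by
    rw [← sum_rE]
    refine Finset.sum_congr rfl fun i _ => ?_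
    rw [Finset.sum_eq_single i] <;> simp +contextual [eq_comm]
  map_zero' := by simp
  map_add' A B := by simp [mul_add, Finset.sum_add_distrib]
  map_mul' A B := by
    have : ∀ i j k l, rE G i j * rlamA n G (A i j) * (rE G k l * rlamA n G (B k l)) =
        if j = k then rE G i l * (rlamA n G (A i j) * rlamA n G (B k l)) else 0 := by
      intro i j k l
      rw [mul_assoc, ← mul_assoc (rlamA n G (A i j)), ← (rE_commute k l _).eq, ← mul_assoc,
        ← mul_assoc, rE_mul]
      split_ifs <;> simp [mul_assoc]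
    rw [Finset.sum_mul]
    refine Finset.sum_congr rfl fun i _ => ?_
    simp only [Matrix.mul_apply, map_sum, map_mul, Finset.mul_sum, Finset.sum_mul, this]
    rw [Finset.sum_comm]
    symm
    refine Finset.sum_congr rfl fun k _ => Finset.sum_congr rfl fun l _ => ?_
    simp

lemma rrho_apply (A : Matrix (Fin n) (Fin n) (MonoidAlgebra ℂ G)) :
    rrho n G A = ∑ i, ∑ j, rE G i j * rlamA n G (A i j) := rfl

lemma rrho_smul (c : ℂ) (A : Matrix (Fin n) (Fin n) (MonoidAlgebra ℂ G)) :
    rrho n G (c • A) = c • rrho n G A := by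
  simp [rrho_apply, Finset.smul_sum]

lemma rrho_coeff (A : Matrix (Fin n) (Fin n) (MonoidAlgebra ℂ G)) (x y : Fin n × G) :
    ⟪rbas n G y, rrho n G A (rbas n G x)⟫_ℂ = (A y.1 x.1).coeff (y.2 * x.2⁻¹) := by
  rw [inner_rbas, rrho_apply]
  simp only [_root_.sum_apply, lp2_sum_apply, mul_apply_eq_comp, rE_apply, rlamA_rbas]
  simp

lemma rrho_diagonal_sa (d : Fin n → MonoidAlgebra ℂ G) (h : ∀ i, IsSelfAdjoint (rlamA n G (d i))) :
    IsSelfAdjoint (rrho n G (Matrix.diagonal d)) := by
  rw [rrho_apply]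
  refine isSelfAdjoint_sum _ fun i _ => isSelfAdjoint_sum _ fun j _ => ?_
  by_cases hij : i = j
  · subst hij
    rw [Matrix.diagonal_apply_eq, IsSelfAdjoint, star_mul, (h i).star_eq, star_rE,
      (rE_commute i i _).eq]
  · simp [hij]

/-- The commutant of the right translations. -/
noncomputable def rM (n : ℕ) (G : Type) [Group G] : StarSubalgebra ℂ (RH n G →L[ℂ] RH n G) :=
  StarSubalgebra.centralizer ℂ (Set.range (rrt n : G → _))

lemma rrho_mem (A : Matrix (Fin n) (Fin n) (MonoidAlgebra ℂ G)) : rrho n G A ∈ rM n G := by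
  have h : ∀ k : G, Commute (rrt n k) (rrho n G A) := fun k => by
    rw [rrho_apply]
    refine Commute.sum_right _ _ _ fun i _ => Commute.sum_right _ _ _ fun j _ =>
      Commute.mul_right ?_ (commute_rlamA (fun k' => ?_) _)
    · exact lp2_ext fun ξ x => by simp [rE_apply, rrt_apply]
    · exact lp2_ext fun ξ x => by simp [rlam_apply, rrt_apply, mul_assoc]
  rw [rM, StarSubalgebra.mem_centralizer_iff]
  rintro _ ⟨k, rfl⟩
  rw [star_rrt]
  exact ⟨h k, h k⁻¹⟩

lemma rM_coeff {a : RH n G →L[ℂ] RH n G} (ha : a ∈ rM n G) (x y : Fin n × G) (k : G) :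
    a (rbas n G x) (y.1, y.2 * k) = a (rbas n G (x.1, x.2 * k⁻¹)) y := by
  rw [rM, StarSubalgebra.mem_centralizer_iff] at ha
  have h := (ha _ ⟨k, rfl⟩).1
  rw [← rrt_rbas, ← rrt_apply, ← mul_apply_eq_comp, h, mul_apply_eq_comp]

/-- The trace. -/
noncomputable def rtr (n : ℕ) (G : Type) [Group G] : (RH n G →L[ℂ] RH n G) →L[ℂ] ℂ :=
  ∑ i : Fin n, (innerSL ℂ (rbas n G (i, 1))).comp
    (ContinuousLinearMap.apply ℂ (RH n G) (rbas n G (i, 1)))

lemma rtr_apply (S : RH n G →L[ℂ] RH n G) :
    rtr n G S = ∑ i : Fin n, ⟪rbas n G (i, 1), S (rbas n G (i, 1))⟫_ℂ := by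
  simp [rtr]

lemma rtr_star (S : RH n G →L[ℂ] RH n G) : (rtr n G (star S)).re = (rtr n G S).re := by
  simp only [rtr_apply, ContinuousLinearMap.star_eq_adjoint,
    ContinuousLinearMap.adjoint_inner_right, Complex.re_sum]
  refine Finset.sum_congr rfl fun i _ => ?_
  rw [← inner_conj_symm, Complex.conj_re]

lemma rtr_rrho (A : Matrix (Fin n) (Fin n) (MonoidAlgebra ℂ G)) :
    rtr n G (rrho n G A) = ∑ i, (A i i).coeff 1 := by
  simp [rtr_apply, rrho_coeff]

lemma rtr_expand (a b : RH n G →L[ℂ] RH n G) (i : Fin n) :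
    ⟪rbas n G (i, 1), (a * b) (rbas n G (i, 1))⟫_ℂ =
      ∑ j, ∑' g : G, a (rbas n G (j, g)) (i, 1) * b (rbas n G (i, 1)) (j, g) := by
  have h := (rbas n G).hasSum_inner_mul_inner (star a (rbas n G (i, 1))) (b (rbas n G (i, 1)))
  simp only [ContinuousLinearMap.star_eq_adjoint, ContinuousLinearMap.adjoint_inner_left,
    inner_rbas] at h
  rw [inner_rbas, mul_apply_eq_comp, ← h.tsum_eq, h.summable.tsum_prod, tsum_fintype]

lemma rtr_comm {a b : RH n G →L[ℂ] RH n G} (ha : a ∈ rM n G) (hb : b ∈ rM n G) :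
    rtr n G (a * b) = rtr n G (b * a) := by
  simp only [rtr_apply, rtr_expand]
  rw [Finset.sum_comm]
  refine Finset.sum_congr rfl fun j _ => Finset.sum_congr rfl fun i _ => ?_
  rw [← (Equiv.inv G).tsum_eq]
  refine tsum_congr fun g => ?_
  have h1 := rM_coeff ha (j, 1) (i, 1) g
  have h2 := rM_coeff hb (i, 1) (j, 1) g⁻¹
  simp only [one_mul, inv_inv] at h1 h2
  rw [Equiv.inv_apply, ← h1, h2, mul_comm]

end Rep

end Crest.Agent.R177
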