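import Crest.Agent.R177.Defs
import Crest.Agent.R177.DetRep
import Crest.Prelude.Def_GroupRingDet

set_option autoImplicit false

namespace Crest.Agent.R177

open Finset

section Mat
variable {R : Type} [Ring R]

/-- The matrix with small determinant. -/
def dA (a b : Fin 2 → R) (W : Fin 2 → Fin 2 → R) (y : R) : Matrix (Fin 3) (Fin 3) R :=
  !![-W 0 0, -W 0 1, a 0; -W 1 0, -W 1 1, a 1; -b 0, -b 1, y]

/-- Upper square-zero part. -/
def dN1 (a : Fin 2 → R) : Matrix (Fin 3) (Fin 3) R := !![0, 0, a 0; 0, 0, a 1; 0, 0, 0]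

/-- Lower square-zero part. -/
def dN2 (b : Fin 2 → R) : Matrix (Fin 3) (Fin 3) R := !![0, 0, 0; 0, 0, 0; -b 0, -b 1, 0]

lemma dN1_sq (a : Fin 2 → R) : dN1 a * dN1 a = 0 := by
  ext i j; fin_cases i <;> fin_cases j <;> simp [dN1, Matrix.mul_apply, Fin.sum_univ_three]

lemma dN2_sq (b : Fin 2 → R) : dN2 b * dN2 b = 0 := by
  ext i j; fin_cases i <;> fin_cases j <;> simp [dN2, Matrix.mul_apply, Fin.sum_univ_three]

lemma dA_factor {a b : Fin 2 → R} {W : Fin 2 → Fin 2 → R} {y yi : R} (h1 : yi * y = 1)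
    (hc : ∀ i, a i * y = y * a i) (h : ∀ i j, a i * b j = (if i = j then 1 else 0) + y * W i j) :
    dA a b W y = Matrix.diagonal ![yi, yi, 1] * (1 + dN1 a) *
      ((1 + dN2 b) * Matrix.diagonal ![1, 1, y]) := by
  have e : ∀ x, yi * (y * x) = x := fun x => by rw [← mul_assoc, h1, one_mul]
  ext i j
  fin_cases i <;> fin_cases j <;>
    simp [dA, dN1, dN2, Matrix.mul_apply, Fin.sum_univ_three, Matrix.diagonal_apply,
      Matrix.one_apply, mul_assoc, h, hc, mul_add, e]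

lemma diag_inv {d d' : Fin 3 → R} (h : ∀ i, d i * d' i = 1) :
    Matrix.diagonal d * Matrix.diagonal d' = 1 := by
  rw [Matrix.diagonal_mul_diagonal, ← Matrix.diagonal_one]
  congr 1
  exact funext h

lemma sq_zero_inv {S : Type} [Ring S] {N : S} (h : N * N = 0) :
    (1 + N) * (1 - N) = 1 ∧ (1 - N) * (1 + N) = 1 := by
  constructor <;> simp [mul_add, add_mul, mul_sub, sub_mul, h]

lemma dA_isUnit {a b : Fin 2 → R} {W : Fin 2 → Fin 2 → R} {y yi : R} (h1 : yi * y = 1)
    (h2 : y * yi = 1) (hc : ∀ i, a i * y = y * a i)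
    (h : ∀ i j, a i * b j = (if i = j then 1 else 0) + y * W i j) : IsUnit (dA a b W y) := by
  rw [dA_factor h1 hc h]
  refine (IsUnit.mul ?_ ?_).mul (IsUnit.mul ?_ ?_)
  · exact ⟨⟨_, Matrix.diagonal ![y, y, 1], diag_inv fun i => by fin_cases i <;> simp [h1],
      diag_inv fun i => by fin_cases i <;> simp [h2]⟩, rfl⟩
  · exact ⟨⟨_, _, (sq_zero_inv (dN1_sq a)).1, (sq_zero_inv (dN1_sq a)).2⟩, rfl⟩
  · exact ⟨⟨_, _, (sq_zero_inv (dN2_sq b)).1, (sq_zero_inv (dN2_sq b)).2⟩, rfl⟩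
  · exact ⟨⟨_, Matrix.diagonal ![1, 1, yi], diag_inv fun i => by fin_cases i <;> simp [h2],
      diag_inv fun i => by fin_cases i <;> simp [h1]⟩, rfl⟩

lemma dA_map {S : Type} [Ring S] (φ : R →+* S) (a b : Fin 2 → R) (W : Fin 2 → Fin 2 → R) (y : R) :
    (dA a b W y).map φ = dA (fun i => φ (a i)) (fun i => φ (b i)) (fun i j => φ (W i j)) (φ y) := by
  ext i j; fin_cases i <;> fin_cases j <;> simp [dA]

variable (k : Type) [Field k] [CharZero k] [Algebra k R]

/-- The complementary idempotent. -/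
def dpi (Z : R) : R := 1 - (1 / 3 : k) • (1 + Z + Z ^ 2)

lemma dpi_sq {Z : R} (h : Z ^ 3 = 1) : dpi k Z * dpi k Z = dpi k Z := by
  have h2 : Z * Z ^ 2 = 1 := by rw [← pow_succ', h]
  have h3 : Z ^ 2 * Z = 1 := by rw [← pow_succ, h]
  have h4 : Z ^ 2 * Z ^ 2 = Z := by rw [sq Z, mul_assoc, ← mul_assoc Z Z Z, ← sq, h3, mul_one]
  have h5 : Z * Z = Z ^ 2 := (sq Z).symm
  simp only [dpi, mul_sub, sub_mul, mul_add, add_mul, smul_mul_smul_comm, mul_one, one_mul, h2, h3,
    h4, h5]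
  module

lemma dpi_y (Z : R) : -1 + Z + Z ^ 2 = 1 - (3 : k) • dpi k Z := by
  simp only [dpi]; module

lemma dpi_inv {Z : R} (h : Z ^ 3 = 1) :
    (1 - (3 / 2 : k) • dpi k Z) * (-1 + Z + Z ^ 2) = 1 ∧
      (-1 + Z + Z ^ 2) * (1 - (3 / 2 : k) • dpi k Z) = 1 := by
  rw [dpi_y k]
  constructor <;>
  · simp only [mul_sub, sub_mul, smul_mul_smul_comm, mul_one, one_mul, dpi_sq k h]
    module

end Mat

lemma y_central {k G : Type} [CommRing k] [Group G] {z : G} (hc : ∀ g, z * g = g * z)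
    (x : MonoidAlgebra k G) : Commute x (MonoidAlgebra.of k G z) := by
  induction x using MonoidAlgebra.induction_linear with
  | zero => simp
  | add a b ha hb => exact ha.add_left hb
  | single g c =>
    simp [Commute, SemiconjBy, MonoidAlgebra.single_mul_single, hc]

open Crest.AlgebraR.GroupRingDet in
lemma logDet_eq {G : Type} [Group G] {n : ℕ} {H : Type} [NormedAddCommGroup H]
    [InnerProductSpace ℂ H] [CompleteSpace H] (β : HilbertBasis (Fin n × G) ℂ H) (T : H →L[ℂ] H) :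
    logDet β T = 1 / 2 * opTrace β (fkLog T) := rfl

open Crest.AlgebraR.GroupRingDet in
/-- A Leavitt relation modulo `y = -1 + z + z ^ 2` gives a determinant below one. -/
theorem det_neg {G : Type} [Group G] (z : G) (hz : z ≠ 1) (hz3 : z ^ 3 = 1)
    (hc : ∀ g, z * g = g * z) (a b : Fin 2 → MonoidAlgebra ℤ G)
    (W : Fin 2 → Fin 2 → MonoidAlgebra ℤ G)
    (h : ∀ i j, a i * b j = (if i = j then 1 else 0) +
      (-1 + MonoidAlgebra.of ℤ G z + MonoidAlgebra.of ℤ G z ^ 2) * W i j) :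
    ∃ (A : Matrix (Fin 3) (Fin 3) (MonoidAlgebra ℤ G))
      (H : Type) (_ : NormedAddCommGroup H) (_ : InnerProductSpace ℂ H) (_ : CompleteSpace H)
      (β : HilbertBasis (Fin 3 × G) ℂ H) (T : H →L[ℂ] H),
      IsUnit (A.map (MonoidAlgebra.mapRingHom G (Int.castRingHom ℚ))) ∧
      IsRegularRepOperator β A T ∧ logDet β T < 0 := by
  classical
  have hmap : ∀ (k : Type) [Field k] (φ : MonoidAlgebra ℤ G →+* MonoidAlgebra k G),
      φ (MonoidAlgebra.of ℤ G z) = MonoidAlgebra.of k G z →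
      φ (-1 + MonoidAlgebra.of ℤ G z + MonoidAlgebra.of ℤ G z ^ 2) =
        -1 + MonoidAlgebra.of k G z + MonoidAlgebra.of k G z ^ 2 ∧
      (∀ i, φ (a i) * (-1 + MonoidAlgebra.of k G z + MonoidAlgebra.of k G z ^ 2) =
        (-1 + MonoidAlgebra.of k G z + MonoidAlgebra.of k G z ^ 2) * φ (a i)) ∧
      (∀ i j, φ (a i) * φ (b j) = (if i = j then 1 else 0) +
        (-1 + MonoidAlgebra.of k G z + MonoidAlgebra.of k G z ^ 2) * φ (W i j)) ∧
      MonoidAlgebra.of k G z ^ 3 = 1 := by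
    intro k _ φ hφ
    refine ⟨by simp only [map_add, map_neg, map_one, map_pow, hφ], fun i => ?_, fun i j => ?_, ?_⟩
    · exact (((Commute.one_right _).neg_right.add_right (y_central hc _)).add_right
        ((y_central hc _).pow_right 2)).eq
    · rw [← map_mul, h]
      simp only [map_add, map_neg, map_one, map_pow, map_mul, hφ, apply_ite φ, map_zero]
    · rw [← map_pow, hz3, map_one]
  set φ := MonoidAlgebra.mapRingHom G (Int.castRingHom ℂ) with hφ
  obtain ⟨c1, c2, c3, c4⟩ := hmap ℂ φ (by simp [hφ])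
  set A := dA a b W (-1 + MonoidAlgebra.of ℤ G z + MonoidAlgebra.of ℤ G z ^ 2) with hA
  refine ⟨A, RH 3 G, inferInstance, inferInstance, inferInstance, rbas 3 G,
    rrho 3 G (A.map φ), ?_, ?_, ?_⟩
  · obtain ⟨q1, q2, q3, q4⟩ := hmap ℚ (MonoidAlgebra.mapRingHom G (Int.castRingHom ℚ)) (by simp)
    rw [hA, dA_map, q1]
    exact dA_isUnit (dpi_inv ℚ q4).1 (dpi_inv ℚ q4).2 q2 q3
  · intro i j g h
    rw [rrho_coeff]
    simp [hφ]
  · obtain ⟨i1, i2⟩ := dpi_inv ℂ c4
    set Z := MonoidAlgebra.of ℂ G z with hZ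
    set y := -1 + Z + Z ^ 2 with hy
    set yi := 1 - (3 / 2 : ℂ) • dpi ℂ Z with hyi
    have hlog : ∀ T, logDet (rbas 3 G) T =
        1 / 2 * (rtr 3 G (fkLog T)).re := fun T => by
      rw [logDet_eq, opTrace, rtr_apply, Complex.re_sum]
    have step : ∀ X Xi Y Yi N : Matrix (Fin 3) (Fin 3) (MonoidAlgebra ℂ G), X * Xi = 1 →
        Xi * X = 1 → Y * Yi = 1 → Yi * Y = 1 → N * N = 0 → (∀ i, N i i = 0) →
        logDet (rbas 3 G) (rrho 3 G (X * (1 + N) * Y)) = logDet (rbas 3 G) (rrho 3 G (X * Y)) := by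
      intro X Xi Y Yi N x1 x2 y1 y2 hN hd
      rw [hlog, hlog, map_mul, map_mul, map_add, map_one, map_mul]
      refine congrArg (fun x : ℝ => 1 / 2 * x) ?_
      refine fk_inv' (rM 3 G) (rtr 3 G) (fun _ ha _ hb => rtr_comm ha hb) rtr_star
        (rrho_mem X) (rrho_mem Xi) (rrho_mem Y) (rrho_mem Yi) (rrho_mem N) ?_ ?_ ?_ ?_ ?_ ?_
      · rw [← map_mul, x1, map_one]
      · rw [← map_mul, x2, map_one]
      · rw [← map_mul, y1, map_one]
      · rw [← map_mul, y2, map_one]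
      · rw [← map_mul, hN, map_zero]
      · simp [rtr_rrho, hd]
    have d1 : Matrix.diagonal ![yi, yi, 1] * Matrix.diagonal ![y, y, 1] = 1 :=
      diag_inv fun i => by fin_cases i <;> simp [i1]
    have d2 : Matrix.diagonal ![y, y, 1] * Matrix.diagonal ![yi, yi, 1] = 1 :=
      diag_inv fun i => by fin_cases i <;> simp [i2]
    have d3 : Matrix.diagonal ![1, 1, yi] * Matrix.diagonal ![1, 1, y] = 1 :=
      diag_inv fun i => by fin_cases i <;> simp [i1]
    have d4 : Matrix.diagonal ![1, 1, y] * Matrix.diagonal ![1, 1, yi] = 1 :=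
      diag_inv fun i => by fin_cases i <;> simp [i2]
    obtain ⟨n1, n2⟩ := sq_zero_inv (dN2_sq fun i => φ (b i))
    rw [hA, dA_map, c1, dA_factor i1 c2 c3,
      step _ _ _ (Matrix.diagonal ![1, 1, yi] * (1 - dN2 fun i => φ (b i))) _ d1 d2
        (by rw [mul_assoc, ← mul_assoc (Matrix.diagonal _), d4, one_mul, n1])
        (by rw [mul_assoc, ← mul_assoc (1 - _), n2, one_mul, d3]) (dN1_sq _)
        (fun i => by fin_cases i <;> simp [dN1]),
      ← mul_assoc, step _ _ _ _ _ d1 d2 d4 d3 (dN2_sq _) (fun i => by fin_cases i <;> simp [dN2])]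
    set π := dpi ℂ Z with hπ
    have pp : π * π = π := dpi_sq ℂ c4
    have hT : Matrix.diagonal ![yi, yi, 1] * Matrix.diagonal ![1, 1, y] =
        1 - (3 / 2 : ℂ) • Matrix.diagonal ![π, π, 0] - (3 : ℂ) • Matrix.diagonal ![0, 0, π] := by
      have hy' : y = 1 - (3 : ℂ) • π := dpi_y ℂ Z
      rw [Matrix.diagonal_mul_diagonal]
      ext i j : 2
      fin_cases i <;> fin_cases j <;> simp [hy', hyi]
    have hsa : IsSelfAdjoint (rlamA 3 G π) := by
      have z1 : rlamA 3 G Z = rlam 3 G z := MonoidAlgebra.lift_of _ _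
      have z2 : z⁻¹ = z ^ 2 := by rw [inv_eq_iff_mul_eq_one, ← pow_succ', hz3]
      have z3 : (z ^ 2)⁻¹ = z := by rw [← z2, inv_inv]
      simp only [hπ, dpi, map_sub, map_one, map_smul, map_add, map_pow, z1]
      rw [← map_pow, IsSelfAdjoint]
      simp only [star_sub, star_one, star_smul, star_add, star_rlam, z2, z3]
      simp [add_right_comm]
    have hd : ∀ d d' : Fin 3 → MonoidAlgebra ℂ G,
        rrho 3 G (Matrix.diagonal d) * rrho 3 G (Matrix.diagonal d') =
          rrho 3 G (Matrix.diagonal fun i => d i * d' i) := fun d d' => by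
      rw [← map_mul, Matrix.diagonal_mul_diagonal]
    have hz2 : z ^ 2 ≠ 1 := fun h2 => hz (by rw [pow_succ, h2, one_mul] at hz3; exact hz3)
    have hco : π.coeff 1 = 2 / 3 := by
      rw [hπ, dpi, hZ, ← map_pow]
      simp [MonoidAlgebra.one_def, hz, hz2]
      norm_num
    rw [hT, hlog, map_sub, map_sub, map_one, rrho_smul, rrho_smul, fk_log_proj', map_smul, map_sub,
      rtr_rrho, rtr_rrho]
    · have := Real.log_pos (x := 4) (by norm_num)
      generalize Real.log 4 = L at this ⊢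
      simp [Fin.sum_univ_three, hco]
      linarith
    · exact rrho_diagonal_sa _ fun i => by fin_cases i <;> simp [hsa]
    · exact rrho_diagonal_sa _ fun i => by fin_cases i <;> simp [hsa]
    · rw [hd]; congr 2; funext i; fin_cases i <;> simp [pp]
    · rw [hd]; congr 2; funext i; fin_cases i <;> simp [pp]
    · rw [hd, ← map_zero (rrho 3 G), ← Matrix.diagonal_zero]; congr 2; funext i
      fin_cases i <;> simp
    · rw [hd, ← map_zero (rrho 3 G), ← Matrix.diagonal_zero]; congr 2; funext i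
      fin_cases i <;> simp

lemma leavitt_corner {R : Type} [Ring R] {e : R} (ee : e * e = e) (ec : ∀ x, Commute x e)
    (e0 : e ≠ 0) {a b : Fin 2 → R} (h : ∀ i j, e * (a i * b j) = if i = j then e else 0) :
    ∃ a b : R, a * b = 1 ∧ b * a ≠ 1 := by
  have key : ∀ x y : R, (e * x + (1 - e)) * (e * y + (1 - e)) = e * (x * y) + (1 - e) := by
    intro x y
    have h1 : e * x * (e * y) = e * (x * y) := by
      rw [mul_assoc, ← mul_assoc x, (ec x).eq, mul_assoc, ← mul_assoc e e, ee]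
    have h2 : e * x * e = e * x := by rw [mul_assoc, (ec x).eq, ← mul_assoc, ee]
    have h3 : e * (e * y) = e * y := by rw [← mul_assoc, ee]
    simp only [mul_add, add_mul, mul_sub, sub_mul, h1, h2, h3, ee, mul_one, one_mul]
    abel
  refine ⟨e * a 0 + (1 - e), e * b 0 + (1 - e), by rw [key, h]; simp, fun h1 => e0 ?_⟩
  rw [key] at h1
  have h2 : e * (b 0 * a 0) = e := by
    rw [← sub_eq_zero, ← sub_eq_zero.mpr h1]; abel
  have h3 : e * b 1 = 0 := by
    rw [← h2, ← mul_assoc, ← (ec (b 0)).eq, mul_assoc, mul_assoc, h]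
    simp
  have h4 := h 1 1
  rw [← mul_assoc, ← (ec (a 1)).eq, mul_assoc, h3] at h4
  simpa using h4.symm

/-- The odd characteristic example from the twisted Leavitt relation. -/
theorem odd_example (p : ℕ) (hp : p.Prime) (h5 : 5 ≤ p) {G : Type} [Group G] (m w : G)
    (hm : m ^ 2 = 1) (hw : w ^ 3 = 1) (hm1 : m ≠ 1) (hw1 : w ≠ 1)
    (hmc : ∀ g, m * g = g * m) (hwc : ∀ g, w * g = g * w)
    (hab : ∀ (k : Type) [CommRing k], ∃ a b : Fin 2 → MonoidAlgebra k G, ∀ i j,
      ∃ W₁ W₂ W₃ : MonoidAlgebra k G, a i * b j = (if i = j then 1 else 0) + p • W₁ +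
        (1 + MonoidAlgebra.of k G m) * W₂ +
        (1 + MonoidAlgebra.of k G w + MonoidAlgebra.of k G w ^ 2) * W₃) :
    ∃ (K : Type) (_ : Field K), Nat.card K = p ^ 4 ∧
      ∃ a b : MonoidAlgebra K G, a * b = 1 ∧ b * a ≠ 1 := by
  classical
  have : Fact p.Prime := ⟨hp⟩
  have : Fact (Nat.Prime 3) := ⟨by norm_num⟩
  have hcard : Nat.card (GaloisField p 4) = p ^ 4 := GaloisField.card p 4 (by norm_num)
  refine ⟨GaloisField p 4, inferInstance, hcard, ?_⟩
  set K := GaloisField p 4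
  have hne : ∀ q : ℕ, 0 < q → q < 5 → (q : K) ≠ 0 := fun q h0 h1 h2 => by
    have := Nat.le_of_dvd h0 ((CharP.cast_eq_zero_iff K p q).mp h2)
    omega
  have h2 : (2 : K) ≠ 0 := by exact_mod_cast hne 2 (by norm_num) (by norm_num)
  have h3 : (3 : K) ≠ 0 := by exact_mod_cast hne 3 (by norm_num) (by norm_num)
  obtain ⟨ω, hω⟩ : ∃ ω : K, 1 + ω + ω ^ 2 = 0 := by
    have hd : 3 ∣ Nat.card Kˣ := by
      rw [Nat.card_units, hcard]
      have hp3 : p % 3 ≠ 0 := fun h0 => by
        have := (Nat.prime_dvd_prime_iff_eq Nat.prime_three hp).mp (Nat.dvd_of_mod_eq_zero h0)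
        omega
      have h4 : p ^ 4 % 3 = 1 := by
        have : p % 3 = 1 ∨ p % 3 = 2 := by omega
        rcases this with h | h <;> simp [Nat.pow_mod, h]
      omega
    obtain ⟨u, hu⟩ := exists_prime_orderOf_dvd_card' 3 hd
    have u3 : (u : K) ^ 3 = 1 := by rw [← Units.val_pow_eq_pow_val, ← hu, pow_orderOf_eq_one]; rfl
    have u1 : (u : K) - 1 ≠ 0 := fun h0 => by
      have : u = 1 := Units.ext (sub_eq_zero.mp h0)
      rw [this, orderOf_one] at hu
      omega
    exact ⟨u, mul_left_cancel₀ u1 (by linear_combination u3)⟩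
  obtain ⟨a, b, hab⟩ := hab K
  obtain ⟨s, hs⟩ : ∃ s : K, 2 * s = 1 := ⟨_, mul_inv_cancel₀ h2⟩
  obtain ⟨t, ht⟩ : ∃ t : K, 3 * t = 1 := ⟨_, mul_inv_cancel₀ h3⟩
  set M := MonoidAlgebra.of K G m with hM
  set Z := MonoidAlgebra.of K G w with hZ
  have M2 : M * M = 1 := by rw [hM, ← map_mul, ← sq, hm, map_one]
  have Z3 : Z ^ 3 = 1 := by rw [hZ, ← map_pow, hw, map_one]
  have z2 : Z * Z ^ 2 = 1 := by rw [← pow_succ', Z3]
  have z3 : Z ^ 2 * Z = 1 := by rw [← pow_succ, Z3]
  have z4 : Z ^ 2 * Z ^ 2 = Z := by rw [sq Z, mul_assoc, ← mul_assoc Z Z Z, ← sq, z3, mul_one]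
  have z5 : Z * Z = Z ^ 2 := (sq Z).symm
  set e₁ : MonoidAlgebra K G := s • (1 - M) with he₁
  set e₂ : MonoidAlgebra K G := t • (1 + ω ^ 2 • Z + ω • Z ^ 2) with he₂
  have c1 : ∀ x, Commute x e₁ := fun x =>
    ((Commute.one_right x).sub_right (y_central hmc x)).smul_right _
  have c2 : ∀ x, Commute x e₂ := fun x =>
    (((Commute.one_right x).add_right ((y_central hwc x).smul_right _)).add_right
      (((y_central hwc x).pow_right 2).smul_right _)).smul_right _
  have i1 : e₁ * e₁ = e₁ := by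
    simp only [he₁, smul_mul_smul_comm, mul_sub, sub_mul, one_mul, mul_one, M2]
    match_scalars
    · linear_combination s * hs
    · linear_combination (-s) * hs
  have i2 : e₂ * e₂ = e₂ := by
    simp only [he₂, smul_mul_smul_comm, mul_add, add_mul, one_mul, mul_one, z2, z3, z4, z5]
    match_scalars
    · linear_combination (2 * t ^ 2 * (ω - 1)) * hω + t * ht
    · linear_combination ω ^ 2 * t * ht
    · linear_combination (t ^ 2 * ω * (ω - 1)) * hω + ω * t * ht
  have k1 : e₁ * (1 + M) = 0 := by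
    simp only [he₁, smul_mul_assoc, mul_add, sub_mul, one_mul, mul_one, M2]
    module
  have k2 : e₂ * (1 + Z + Z ^ 2) = 0 := by
    simp only [he₂, smul_mul_assoc, mul_add, add_mul, one_mul, mul_one, z2, z3, z4, z5]
    match_scalars <;> linear_combination t * hω
  refine leavitt_corner (e := e₁ * e₂) ?_ (fun x => (c1 x).mul_right (c2 x)) ?_ (a := a) (b := b) ?_
  · rw [mul_assoc, ← mul_assoc e₂, (c1 e₂).eq, mul_assoc, i2, ← mul_assoc, i1]
  · intro h0
    have hw2 : w ^ 2 ≠ 1 := fun h => hw1 (by rw [pow_succ, h, one_mul] at hw; exact hw)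
    have hmw : m * w ≠ 1 := fun h => hw2 (by
      rw [eq_inv_of_mul_eq_one_right h, inv_pow, hm, inv_one])
    have hmw2 : m * w ^ 2 ≠ 1 := fun h => hw1 (by
      have h4 : (w ^ 2) ^ 2 = 1 := by rw [eq_inv_of_mul_eq_one_right h, inv_pow, hm, inv_one]
      rwa [← pow_mul, show 2 * 2 = 3 + 1 from rfl, pow_succ, hw, one_mul] at h4)
    have s0 : s ≠ 0 := right_ne_zero_of_mul_eq_one hs
    have t0 : t ≠ 0 := right_ne_zero_of_mul_eq_one ht
    rw [he₁, he₂, smul_mul_smul_comm, hM, hZ] at h0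
    simp only [mul_add, sub_mul, one_mul, mul_one, mul_smul_comm, ← map_pow, ← map_mul] at h0
    have := congrArg (fun x : MonoidAlgebra K G => x.coeff 1) h0
    simp [MonoidAlgebra.one_def, hm1, hw1, hw2, hmw, hmw2, s0, t0] at this
  · intro i j
    obtain ⟨W₁, W₂, W₃, h⟩ := hab i j
    have hp0 : p • W₁ = 0 := by
      rw [← Nat.cast_smul_eq_nsmul K, CharP.cast_eq_zero, zero_smul]
    have k1' : e₁ * e₂ * (1 + M) = 0 := by rw [← (c1 e₂).eq, mul_assoc, k1, mul_zero]
    have k2' : e₁ * e₂ * (1 + Z + Z ^ 2) = 0 := by rw [mul_assoc, k2, mul_zero]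
    rw [h, hp0, add_zero, mul_add, mul_add, ← mul_assoc, k1', ← mul_assoc, k2']
    simp

end Crest.Agent.R177
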