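import Crest.Agent.R177.Ray
import Crest.Agent.R177.Loc
import Crest.Agent.R177.Global
import Crest.Agent.R177.VK
import Crest.Agent.R177.Coh
import Crest.Agent.R177.Design
import Crest.Agent.R177.Plane

set_option autoImplicit false

namespace Crest.Agent.R177

open Finset

section Core

variable {P Sh : Type} [DecidableEq P] [DecidableEq Sh] {R : Finset (P × P)} {Q d n : ℕ}

/-- The role of a generator. -/
def grole (𝒟 : Design P Sh R Q d n) : P ⊕ 𝒟.V → Fin 3
  | Sum.inl _ => 1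
  | Sum.inr v => rad (𝒟.side v)

theorem grole_graphL {𝒟 : Design P Sh R Q d n} {Γ : Finset (Edge 𝒟.V P)} (hΓ : IsGraph 𝒟 Γ)
    (t : {e // e ∈ Γ}) (i : Fin 3) : grole 𝒟 (graphL Γ t i) = i := by
  fin_cases i
  · simp [graphL, grole, hΓ.side _ t.2, rad]
  · simp [graphL, grole]
  · simp [graphL, grole, hΓ.side _ t.2, rad]

theorem lab_of_vk {V : Type} {Γ : Finset (Edge V P)} {D : Gem} {tri : D.F → {e // e ∈ Γ}}
    (h1 : ∀ x i, graphL Γ (tri (D.σ i x)) i = graphL Γ (tri x) i)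
    (h2 : ∀ x i, D.σ i x ≠ x → tri (D.σ i x) ≠ tri x) : Lab Γ D (fun x => (tri x).1) := by
  refine ⟨fun x => (tri x).2, fun x => ?_, fun x b => ?_, fun x i h he => h2 x i h (Subtype.ext he)⟩
  · simpa [graphL] using h1 x 1
  · cases b
    · simpa [graphL, rad] using h1 x 0
    · simpa [graphL, rad] using h1 x 2

theorem countP_three {α : Type} (f : α → Fin 3) (L : List α) :
    L.countP (fun a => f a = 0) + L.countP (fun a => f a = 1) + L.countP (fun a => f a = 2) =
      L.length := by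
  induction L with
  | nil => simp
  | cons a L ih =>
    simp only [List.countP_cons, List.length_cons]
    have : f a = 0 ∨ f a = 1 ∨ f a = 2 := by
      generalize f a = i; fin_cases i <;> simp
    rcases this with h | h | h <;> simp [h] <;> omega

theorem core (P Sh : Type) [Fintype P] [DecidableEq P] [Fintype Sh] [DecidableEq Sh]
    (R : Finset (P × P)) (Q d : ℕ) (hQ : 2 ≤ Q) (hK : R.card < Q ^ 2) :
    ∃ n, 0 < n ∧ Even n ∧ ∀ (𝒟 : Design P Sh R Q d n) (pin : 𝒟.V), ∃ Γ, IsGraph 𝒟 Γ ∧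
      (∃ C, Dehn (graphL Γ) C) ∧
      (𝒟.side pin = false → ∀ v, 𝒟.side v = false → v ≠ pin →
        pgen (graphL Γ) (Sum.inr v) ≠ pgen (graphL Γ) (Sum.inr pin)) := by
  obtain ⟨C₀, hC₀⟩ := loc P Sh R Q d hQ hK
  obtain ⟨M, C, hMC⟩ := global_iso C₀
  obtain ⟨g, n, hg, hn, he, hloc⟩ := hC₀ (max M (40 * C + 52))
  refine ⟨n, hn, he, fun 𝒟 pin => ?_⟩
  obtain ⟨Γ, hΓ, hgirth, hl⟩ := hloc 𝒟 pin
  have iso : ∀ (D : Gem) (ε : D.F → Edge 𝒟.V P), Lab Γ D ε → D.Ac →
      D.area ≤ C * (D.B + g * D.X) := by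
    intro D ε hL hac
    refine hMC g hg (fun D => ∃ ε : D.F → Edge 𝒟.V P, Lab Γ D ε) ?_ ?_ ?_ ?_ D ⟨ε, hL⟩ hac
    · rintro D S ⟨ε, hL⟩; exact ⟨_, hL.res S⟩
    · rintro D ⟨ε, hL⟩; exact hL.folded hΓ
    · rintro D ⟨ε, hL⟩; exact hL.cone hgirth
    · rintro D ⟨ε, hL⟩ h1 h2
      exact (hl D ε hL (h1.trans (Nat.mul_le_mul_right _ (le_max_left _ _)))
        (h2.trans (le_max_left _ _))).1
  refine ⟨Γ, hΓ, ⟨C * g, fun L => ?_⟩, fun hpin v hv hne heq => ?_⟩
  · obtain ⟨D, tri, h1, h2, hac, hbd, -, hch⟩ := vk (graphL Γ) (grole 𝒟) (grole_graphL hΓ) L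
    have hi := iso D _ (lab_of_vk h1 h2) hac
    have h3 := countP_three (fun a : (P ⊕ 𝒟.V) × Bool => grole 𝒟 a.1) (vkProd (graphL Γ) L).toWord
    have h0 := hbd 0
    have h1' := hbd 1
    have h2' := hbd 2
    have : D.B + g * D.X ≤ g * (vkProd (graphL Γ) L).toWord.length := by
      unfold Gem.B Gem.X
      rw [← h3]
      nlinarith
    calc _ ≤ D.area := hch
      _ ≤ C * (D.B + g * D.X) := hi
      _ ≤ C * (g * _) := Nat.mul_le_mul_left _ this
      _ = _ := by ring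
  · obtain ⟨L, hLw⟩ := exists_vkProd (graphL Γ)
      (FreeGroup.of (Sum.inr pin) * (FreeGroup.of (Sum.inr v))⁻¹) (by
        rw [map_mul, map_inv]
        change pgen (graphL Γ) (Sum.inr pin) * (pgen (graphL Γ) (Sum.inr v))⁻¹ = 1
        rw [heq, mul_inv_cancel])
    have hw : (vkProd (graphL Γ) L).toWord = [(Sum.inr pin, true), (Sum.inr v, false)] := by
      rw [hLw]
      have : FreeGroup.of (Sum.inr pin : P ⊕ 𝒟.V) * (FreeGroup.of (Sum.inr v))⁻¹ =
          FreeGroup.mk [(Sum.inr pin, true), (Sum.inr v, false)] := rfl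
      rw [this, FreeGroup.toWord_mk]
      simp [FreeGroup.reduce, Ne.symm hne]
    obtain ⟨D, tri, h1, h2, hac, hbd, hvis, -⟩ := vk (graphL Γ) (grole 𝒟) (grole_graphL hΓ) L
    have hL := lab_of_vk h1 h2
    have hi := iso D _ hL hac
    have h0 := hbd 0
    have h1' := hbd 1
    have h2' := hbd 2
    rw [hw] at h0 h1' h2' hvis
    simp [grole, hpin, hv, rad] at h0 h1' h2'
    have hB : D.B = 0 := h1'
    have hX : D.X ≤ 2 := by unfold Gem.X; omega
    obtain ⟨x, i, hx⟩ := hvis (Sum.inr pin) (by simp [hne])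
    have hi0 : i = 0 := by
      have := grole_graphL hΓ (tri x) i
      rw [hx] at this
      simpa [grole, hpin, rad] using this.symm
    subst hi0
    have hx' : (tri x).1.1 false = pin := by simpa [graphL] using hx
    have harea : D.area ≤ C * (2 * g) := by
      calc D.area ≤ C * (D.B + g * D.X) := hi
        _ ≤ _ := Nat.mul_le_mul_left _ (by rw [hB]; nlinarith)
    have hnp := np_le D g (hL.folded hΓ) (hL.cone hgirth) hac
    have hnp' : D.np ≤ 40 * C + 52 := by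
      apply Nat.le_of_mul_le_mul_left _ hg
      nlinarith
    have hfin := (hl D _ hL (by
      calc D.area ≤ C * (2 * g) := harea
        _ ≤ (40 * C + 52) * g := by nlinarith
        _ ≤ _ := Nat.mul_le_mul_right _ (le_max_right _ _))
      (hnp'.trans (le_max_right _ _))).2 hB hX ⟨x, hx'⟩
    have hpos : 0 < D.area := Fintype.card_pos_iff.2 ⟨x⟩
    exact pin_false D g (hL.folded hΓ) (hL.cone hgirth) hac hB hX hpos (by omega)

end Core

/-- The grading of the presented group of a graph. -/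
theorem exists_grading {P Sh : Type} [DecidableEq P] [DecidableEq Sh] {R : Finset (P × P)}
    {Q d n : ℕ} {𝒟 : Design P Sh R Q d n} {Γ : Finset (Edge 𝒟.V P)} (hΓ : IsGraph 𝒟 Γ) :
    ∃ deg : PG (graphL Γ) →* Multiplicative ℤ,
      ∀ s, 0 < Multiplicative.toAdd (deg (pgen (graphL Γ) s)) := by
  let f : P ⊕ 𝒟.V → Multiplicative ℤ := fun s =>
    Multiplicative.ofAdd (if grole 𝒟 s = 2 then 2 else 1)
  refine ⟨PresentedGroup.toGroup (f := f) ?_, fun s => ?_⟩
  · rintro r ⟨t, rfl⟩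
    simp only [relator, map_mul, map_inv, FreeGroup.lift_apply_of, f, grole_graphL hΓ]
    decide
  · simp only [pgen, PresentedGroup.toGroup.of, f, toAdd_ofAdd]
    split_ifs <;> norm_num

/-- The torsion-free example: all the data needed for rows 177 and 199 and S0274. -/
theorem exists_groupI : ∃ (Gen Tr : Type) (_ : Fintype Gen) (_ : Fintype Tr) (_ : DecidableEq Gen)
    (l : Tr → Fin 3 → Gen) (C : ℕ), Dehn l C ∧
    (∃ deg : PG l →* Multiplicative ℤ, ∀ s, 0 < Multiplicative.toAdd (deg (pgen l s))) ∧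
    ∃ a b c : MonoidAlgebra (ZMod 2) (PG l), a * b = 1 ∧ a * c = 0 ∧ c ≠ 0 := by
  obtain ⟨PP⟩ := exists_bplane 2 2 Nat.prime_two (by norm_num) (by norm_num)
  obtain ⟨n, hn, he, hcore⟩ := core (Pt PP.Pr) (Fin 3) (blkRel PP.Pr) PP.Q
    (Fintype.card (Pt PP.Pr)) PP.two_le (by rw [card_blkRel]; exact PP.small)
  obtain ⟨𝒟, pin, hpin, hD⟩ := designI PP n hn he
  obtain ⟨Γ, hΓ, ⟨C, hC⟩, hinj⟩ := hcore 𝒟 pin
  refine ⟨_, _, inferInstance, inferInstance, inferInstance, graphL Γ, C, hC,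
    exists_grading hΓ, hD Γ hΓ _ (pgen (graphL Γ)) (fun e he => ?_) (hinj hpin)⟩
  simpa [graphL] using rel_pgen (graphL Γ) ⟨e, he⟩

end Crest.Agent.R177
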